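import Vale.Agent.Lib.P248.Top

open MeasureTheory

/-- Mahler's inequality for convex bodies `K` in `ℝ^J × (ℝ²)^I` that are invariant under the sign
flip of each coordinate in `J` and under the rotation by `π / m i` (with `m i ≥ 3`) of each
coordinate plane `i ∈ I`, with strict inequality as soon as `I` is nonempty. -/
theorem Vale.Agent.Results.P248.AMahlerRotationBlocks.result
    {J I : Type*} [Fintype J] [Fintype I] [DecidableEq J] [DecidableEq I]
    (m : I → ℕ) (hm : ∀ i, 3 ≤ m i) (K : Set (J ⊕ (I × Bool) → ℝ))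
    (hconv : Convex ℝ K) (hcomp : IsCompact K) (hint : (interior K).Nonempty)
    (hflip : ∀ j, ∀ x ∈ K, Function.update x (Sum.inl j) (- x (Sum.inl j)) ∈ K)
    (hrot : ∀ i, ∀ x ∈ K,
      Function.update
        (Function.update x (Sum.inr (i, false))
          (Real.cos (Real.pi / m i) * x (Sum.inr (i, false)) -
            Real.sin (Real.pi / m i) * x (Sum.inr (i, true))))
        (Sum.inr (i, true))
        (Real.sin (Real.pi / m i) * x (Sum.inr (i, false)) +
          Real.cos (Real.pi / m i) * x (Sum.inr (i, true))) ∈ K) :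
    (4:ℝ) ^ (Fintype.card J + 2 * Fintype.card I) /
        ((Fintype.card J + 2 * Fintype.card I).factorial : ℝ) ≤
      (volume K).toReal * (volume {y : J ⊕ (I × Bool) → ℝ | ∀ x ∈ K, ∑ c, x c * y c ≤ 1}).toReal ∧
    (Nonempty I →
      (4:ℝ) ^ (Fintype.card J + 2 * Fintype.card I) /
        ((Fintype.card J + 2 * Fintype.card I).factorial : ℝ) <
      (volume K).toReal *
        (volume {y : J ⊕ (I × Bool) → ℝ | ∀ x ∈ K, ∑ c, x c * y c ≤ 1}).toReal) := by
  have hK := Vale.Agent.Lib.P248.inClass_of_body (m := m) hm hconv hcomp hint hflip hrot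
  have hfin := Vale.Agent.Lib.P248.final_ineq hm hK
  have hcard : Fintype.card (Vale.Agent.Lib.P248.Ix J I) =
      Fintype.card J + 2 * Fintype.card I := by
    simp [Vale.Agent.Lib.P248.Ix, Fintype.card_sum, Fintype.card_prod, mul_comm]
  have hpol : Vale.Agent.Lib.P248.Polar Finset.univ K =
      {y : J ⊕ (I × Bool) → ℝ | ∀ x ∈ K, ∑ c, x c * y c ≤ 1} := by
    ext y
    constructor
    · intro hy
      exact hy.2
    · intro hy
      exact ⟨fun d hd => absurd (Finset.mem_univ d) hd, hy⟩
  rw [hcard, hpol] at hfin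
  exact hfin
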