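import Vale.Agent.Lib.P248G.Main

/-!
# The general Mahler inequality in dimension 3.

For every convex body `K` in `ℝ³` and every interior point `z` of `K`, the product of the volume of
`K` and the volume of the polar of `K` with respect to `z` is at least `64 / 9`, the value of the
product at a simplex with `z` its centroid.
-/

open MeasureTheory Matrix

namespace Vale.Agent.Results.P248.Q2DimThree

/-- Mahler inequality for all convex bodies in dimension 3: `|K| |(K - z)°| ≥ 64 / 9` for all interior
points `z`, hence `P(K) ≥ 4 ^ 4 / (3 !) ^ 2`. `volume` is Lebesgue measure on `Fin 3 → ℝ`, and `⬝ᵥ` is the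
Euclidean inner product. -/
theorem result (K : Set (Fin 3 → ℝ)) (hK : IsCompact K) (hconv : Convex ℝ K) (z : Fin 3 → ℝ)
    (hz : z ∈ interior K) :
    (64 : ℝ) / 9 ≤
      (volume K).toReal * (volume {y : Fin 3 → ℝ | ∀ x ∈ K, y ⬝ᵥ (x - z) ≤ 1}).toReal :=
  Vale.Agent.Lib.P248G.mahler_three hK hconv hz

end Vale.Agent.Results.P248.Q2DimThree
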