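import Vale.Agent.Results.P248.AMahlerPlaneRotations
import Vale.Agent.Results.P248.AMahlerRotationBlocks
import Vale.Agent.Results.P248.Q2DimThree

/-!
# P248: the general Mahler inequality in dimension 3 and two classes of bodies in every dimension
-/

open MeasureTheory Matrix

universe u v

namespace Vale.Agent.Results.P248.A0Conj

/-- The statement of `AMahlerPlaneRotations.result`. -/
def PlaneRotationsPart : Prop :=
  ∀ {J : Type u} {I : Type v} [Fintype J] [Fintype I] [DecidableEq J] [DecidableEq I]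
    (m : I → ℕ) (hm : ∀ i, 3 ≤ m i) (K : Set (J ⊕ (I × Bool) → ℝ))
    (hconv : Convex ℝ K) (hcomp : IsCompact K) (hint : (interior K).Nonempty)
    (hflip : ∀ j, ∀ x ∈ K, Function.update x (Sum.inl j) (- x (Sum.inl j)) ∈ K)
    (hrot : ∀ i, ∀ x ∈ K,
      Function.update
        (Function.update x (Sum.inr (i, false))
          (Real.cos (2 * Real.pi / m i) * x (Sum.inr (i, false)) -
            Real.sin (2 * Real.pi / m i) * x (Sum.inr (i, true))))
        (Sum.inr (i, true))
        (Real.sin (2 * Real.pi / m i) * x (Sum.inr (i, false)) +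
          Real.cos (2 * Real.pi / m i) * x (Sum.inr (i, true))) ∈ K)
    (z : J ⊕ (I × Bool) → ℝ) (hz : z ∈ interior K),
    (4:ℝ) ^ Fintype.card J *
          (∏ i, (4 * (m i : ℝ) ^ 2 * Real.cos (Real.pi / m i) * (1 - Real.cos (Real.pi / m i)))) /
          ((Fintype.card J + 2 * Fintype.card I).factorial : ℝ) ≤
        (volume K).toReal *
          (volume {y : J ⊕ (I × Bool) → ℝ | ∀ x ∈ K, ∑ c, (x c - z c) * y c ≤ 1}).toReal ∧
      ((∀ i, 5 ≤ m i) →
        (((Fintype.card J + 2 * Fintype.card I : ℕ) : ℝ) + 1) ^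
              (Fintype.card J + 2 * Fintype.card I + 1) /
            ((Fintype.card J + 2 * Fintype.card I).factorial : ℝ) ^ 2 ≤
          (volume K).toReal *
            (volume {y : J ⊕ (I × Bool) → ℝ | ∀ x ∈ K, ∑ c, (x c - z c) * y c ≤ 1}).toReal ∧
        (Nonempty I →
          (((Fintype.card J + 2 * Fintype.card I : ℕ) : ℝ) + 1) ^
              (Fintype.card J + 2 * Fintype.card I + 1) /
            ((Fintype.card J + 2 * Fintype.card I).factorial : ℝ) ^ 2 <
          (volume K).toReal *
            (volume {y : J ⊕ (I × Bool) → ℝ | ∀ x ∈ K, ∑ c, (x c - z c) * y c ≤ 1}).toReal)) ∧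
      ((∀ i, 6 ≤ m i) →
        (4:ℝ) ^ (Fintype.card J + 2 * Fintype.card I) /
            ((Fintype.card J + 2 * Fintype.card I).factorial : ℝ) ≤
          (volume K).toReal *
            (volume {y : J ⊕ (I × Bool) → ℝ | ∀ x ∈ K, ∑ c, (x c - z c) * y c ≤ 1}).toReal ∧
        (Nonempty I →
          (4:ℝ) ^ (Fintype.card J + 2 * Fintype.card I) /
            ((Fintype.card J + 2 * Fintype.card I).factorial : ℝ) <
          (volume K).toReal *
            (volume {y : J ⊕ (I × Bool) → ℝ | ∀ x ∈ K, ∑ c, (x c - z c) * y c ≤ 1}).toReal))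

/-- The statement of `AMahlerRotationBlocks.result`. -/
def RotationBlocksPart : Prop :=
  ∀ {J : Type u} {I : Type v} [Fintype J] [Fintype I] [DecidableEq J] [DecidableEq I]
    (m : I → ℕ) (hm : ∀ i, 3 ≤ m i) (K : Set (J ⊕ (I × Bool) → ℝ))
    (hconv : Convex ℝ K) (hcomp : IsCompact K) (hint : (interior K).Nonempty)
    (hflip : ∀ j, ∀ x ∈ K, Function.update x (Sum.inl j) (- x (Sum.inl j)) ∈ K)
    (hrot : ∀ i, ∀ x ∈ K,
      Function.update
        (Function.update x (Sum.inr (i, false))
          (Real.cos (Real.pi / m i) * x (Sum.inr (i, false)) -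
            Real.sin (Real.pi / m i) * x (Sum.inr (i, true))))
        (Sum.inr (i, true))
        (Real.sin (Real.pi / m i) * x (Sum.inr (i, false)) +
          Real.cos (Real.pi / m i) * x (Sum.inr (i, true))) ∈ K),
    (4:ℝ) ^ (Fintype.card J + 2 * Fintype.card I) /
        ((Fintype.card J + 2 * Fintype.card I).factorial : ℝ) ≤
      (volume K).toReal * (volume {y : J ⊕ (I × Bool) → ℝ | ∀ x ∈ K, ∑ c, x c * y c ≤ 1}).toReal ∧
    (Nonempty I →
      (4:ℝ) ^ (Fintype.card J + 2 * Fintype.card I) /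
        ((Fintype.card J + 2 * Fintype.card I).factorial : ℝ) <
      (volume K).toReal *
        (volume {y : J ⊕ (I × Bool) → ℝ | ∀ x ∈ K, ∑ c, x c * y c ≤ 1}).toReal)

/-- The statement of `Q2DimThree.result`: the Mahler inequality for all convex bodies in `ℝ³`. -/
def DimThreePart : Prop :=
  ∀ (K : Set (Fin 3 → ℝ)) (_ : IsCompact K) (_ : Convex ℝ K) (z : Fin 3 → ℝ) (_ : z ∈ interior K),
    (64 : ℝ) / 9 ≤
      (volume K).toReal * (volume {y : Fin 3 → ℝ | ∀ x ∈ K, y ⬝ᵥ (x - z) ≤ 1}).toReal

end Vale.Agent.Results.P248.A0Conj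

/-- The conjunction of `Q2DimThree.result`, `AMahlerPlaneRotations.result` and
`AMahlerRotationBlocks.result`. -/
theorem Vale.Agent.Results.P248.A0Conj.result :
    Vale.Agent.Results.P248.A0Conj.DimThreePart ∧
      Vale.Agent.Results.P248.A0Conj.PlaneRotationsPart.{u, v} ∧
      Vale.Agent.Results.P248.A0Conj.RotationBlocksPart.{u, v} :=
  ⟨@Vale.Agent.Results.P248.Q2DimThree.result, @Vale.Agent.Results.P248.AMahlerPlaneRotations.result,
    @Vale.Agent.Results.P248.AMahlerRotationBlocks.result⟩
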