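import Vale.Agent.Lib.P248R.Final

open MeasureTheory

/-- Let `K` be a convex body in `ℝ^J × (ℝ²)^I` invariant under the sign flip of each coordinate
in `J` and under the rotation by `2π / m i` (`m i ≥ 3`) of each coordinate plane `i ∈ I`; such a
body need not be origin symmetric.  Then for every interior point `z`, the product of the volume
of `K` and the volume of the polar `(K - z)°` is at least
`4^|J| ∏ᵢ (4 mᵢ² cᵢ (1 - cᵢ)) / n!`, where `cᵢ = cos (π / mᵢ)` and `n = |J| + 2 |I|`.
If all `mᵢ ≥ 5` this is at least `(n+1)^(n+1) / (n!)²`, if all `mᵢ ≥ 6` it is at least `4^n / n!`,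
and these inequalities are strict once `I` is nonempty. -/
theorem Vale.Agent.Results.P248.AMahlerPlaneRotations.result
    {J I : Type*} [Fintype J] [Fintype I] [DecidableEq J] [DecidableEq I]
    (m : I → ℕ) (hm : ∀ i, 3 ≤ m i) (K : Set (J ⊕ (I × Bool) → ℝ))
    (hconv : Convex ℝ K) (hcomp : IsCompact K) (hint : (interior K).Nonempty)
    (hflip : ∀ j, ∀ x ∈ K, Function.update x (Sum.inl j) (- x (Sum.inl j)) ∈ K)
    (hrot : ∀ i, ∀ x ∈ K,
      Function.update
        (Function.update x (Sum.inr (i, false))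
          (Real.cos (2 * Real.pi / m i) * x (Sum.inr (i, false)) -
            Real.sin (2 * Real.pi / m i) * x (Sum.inr (i, true))))
        (Sum.inr (i, true))
        (Real.sin (2 * Real.pi / m i) * x (Sum.inr (i, false)) +
          Real.cos (2 * Real.pi / m i) * x (Sum.inr (i, true))) ∈ K)
    (z : J ⊕ (I × Bool) → ℝ) (hz : z ∈ interior K) :
    (4:ℝ) ^ Fintype.card J *
          (∏ i, (4 * (m i : ℝ) ^ 2 * Real.cos (Real.pi / m i) * (1 - Real.cos (Real.pi / m i)))) /
          ((Fintype.card J + 2 * Fintype.card I).factorial : ℝ) ≤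
        (volume K).toReal *
          (volume {y : J ⊕ (I × Bool) → ℝ | ∀ x ∈ K, ∑ c, (x c - z c) * y c ≤ 1}).toReal ∧
      ((∀ i, 5 ≤ m i) →
        (((Fintype.card J + 2 * Fintype.card I : ℕ) : ℝ) + 1) ^
              (Fintype.card J + 2 * Fintype.card I + 1) /
            ((Fintype.card J + 2 * Fintype.card I).factorial : ℝ) ^ 2 ≤
          (volume K).toReal *
            (volume {y : J ⊕ (I × Bool) → ℝ | ∀ x ∈ K, ∑ c, (x c - z c) * y c ≤ 1}).toReal ∧
        (Nonempty I →
          (((Fintype.card J + 2 * Fintype.card I : ℕ) : ℝ) + 1) ^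
              (Fintype.card J + 2 * Fintype.card I + 1) /
            ((Fintype.card J + 2 * Fintype.card I).factorial : ℝ) ^ 2 <
          (volume K).toReal *
            (volume {y : J ⊕ (I × Bool) → ℝ | ∀ x ∈ K, ∑ c, (x c - z c) * y c ≤ 1}).toReal)) ∧
      ((∀ i, 6 ≤ m i) →
        (4:ℝ) ^ (Fintype.card J + 2 * Fintype.card I) /
            ((Fintype.card J + 2 * Fintype.card I).factorial : ℝ) ≤
          (volume K).toReal *
            (volume {y : J ⊕ (I × Bool) → ℝ | ∀ x ∈ K, ∑ c, (x c - z c) * y c ≤ 1}).toReal ∧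
        (Nonempty I →
          (4:ℝ) ^ (Fintype.card J + 2 * Fintype.card I) /
            ((Fintype.card J + 2 * Fintype.card I).factorial : ℝ) <
          (volume K).toReal *
            (volume {y : J ⊕ (I × Bool) → ℝ | ∀ x ∈ K, ∑ c, (x c - z c) * y c ≤ 1}).toReal)) := by
  open Vale.Agent.Lib.P248R Vale.Agent.Lib.P248 in
  have hrot' : ∀ i, ∀ x ∈ K, rot2 (A i) (B i) (al m i) x ∈ K := by
    intro i x hx
    have e : al m i = 2 * Real.pi / m i := by
      unfold al ha
      ring
    rw [e]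
    exact hrot i x hx
  have hb := Vale.Agent.Lib.P248R.main_bound hm hconv hcomp hint hflip hrot' hz
  have hcard : Fintype.card (Vale.Agent.Lib.P248R.Ix J I) =
      Fintype.card J + 2 * Fintype.card I := by
    simp [Vale.Agent.Lib.P248R.Ix, Fintype.card_sum, Fintype.card_prod, mul_comm]
  rw [hcard, Vale.Agent.Lib.P248R.CC_eq] at hb
  set V := (volume K).toReal *
    (volume {y : J ⊕ (I × Bool) → ℝ | ∀ x ∈ K, ∑ c, (x c - z c) * y c ≤ 1}).toReal with hV
  have hV' : (volume K).toReal * (volume {y : Vale.Agent.Lib.P248R.Ix J I → ℝ | ∀ x ∈ K,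
      Vale.Agent.Lib.P248.dot (x - z) y ≤ 1}).toReal = V := rfl
  rw [hV'] at hb
  set N := Fintype.card J + 2 * Fintype.card I with hN
  have hfact : (0:ℝ) < (N.factorial : ℝ) := by positivity
  have h4J : (0:ℝ) < 4 ^ Fintype.card J := by positivity
  set P := ∏ i, (4 * (m i : ℝ) ^ 2 * Real.cos (Vale.Agent.Lib.P248R.ha m i) *
    (1 - Real.cos (Vale.Agent.Lib.P248R.ha m i))) with hP
  have hb' : (4:ℝ) ^ Fintype.card J * P / (N.factorial : ℝ) ≤ V := hb
  have hbbN : ((N : ℝ) + 1) ^ (N + 1) / (N.factorial : ℝ) ^ 2 =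
      Vale.Agent.Lib.P248R.bb N / (N.factorial : ℝ) := by
    unfold Vale.Agent.Lib.P248R.bb
    field_simp
  have hbb := Vale.Agent.Lib.P248R.bb_le (Fintype.card J) (Fintype.card I)
  rw [← hN] at hbb
  refine ⟨hb, fun h5 => ?_, fun h6 => ?_⟩
  · rw [hbbN]
    have hk : ∀ i, (15:ℝ) < 4 * (m i : ℝ) ^ 2 * Real.cos (Vale.Agent.Lib.P248R.ha m i) *
        (1 - Real.cos (Vale.Agent.Lib.P248R.ha m i)) :=
      fun i => Vale.Agent.Lib.P248R.kappa_gt_15 hm i (h5 i)
    constructor
    · refine le_trans ?_ hb'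
      gcongr
      exact hbb.trans (mul_le_mul_of_nonneg_left
        (Vale.Agent.Lib.P248R.prod_kappa_ge hm (by norm_num) hk) h4J.le)
    · intro hI
      refine lt_of_lt_of_le ?_ hb'
      gcongr
      exact lt_of_le_of_lt hbb (mul_lt_mul_of_pos_left
        (Vale.Agent.Lib.P248R.prod_kappa_gt hm (by norm_num) hk) h4J)
  · have hk : ∀ i, (16:ℝ) < 4 * (m i : ℝ) ^ 2 * Real.cos (Vale.Agent.Lib.P248R.ha m i) *
        (1 - Real.cos (Vale.Agent.Lib.P248R.ha m i)) :=
      fun i => Vale.Agent.Lib.P248R.kappa_gt_16 hm i (h6 i)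
    have hpow : (4:ℝ) ^ N = 4 ^ Fintype.card J * 16 ^ Fintype.card I := by
      rw [hN, pow_add, pow_mul]
      norm_num
    rw [hpow]
    constructor
    · refine le_trans ?_ hb'
      gcongr
      exact Vale.Agent.Lib.P248R.prod_kappa_ge hm (by norm_num) hk
    · intro hI
      refine lt_of_lt_of_le ?_ hb'
      gcongr
      exact Vale.Agent.Lib.P248R.prod_kappa_gt hm (by norm_num) hk
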